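import Claimed.Agent.R282.S34.PR.Open

/-!
# Row 282, profile rigidity.  File 6: transport, comparison along a complex line, the theorem

See the master plan in `PR/Lin.lean`.
-/

set_option autoImplicit false

open Module Matrix Topology
open scoped Matrix.Norms.Operator

namespace Claimed.Agent.R282.PR

/-- **one side**: a configuration of type `b · m` whose kernel dimension is `≤ b`, and `≥ b` in a neighbourhood.  PROVED. -/
theorem pr_side {K : Type} [Fintype K] [DecidableEq K] [Nonempty K] {x : Fin 3 → K → ℝ} (hsq : Sq x) {g : Tgt K}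
    (hg : Brick x g) (b : ℕ) :
    ∃ W : Tgt (K × Fin b), eDim (lvl b x) W ≤ b ∧ ∀ᶠ g' in 𝓝 W, b ≤ eDim (lvl b x) g' := by
  obtain ⟨ξ, σ, hF⟩ := exists_fam hsq hg b
  exact ⟨Gs g ξ σ, eDim_bd_le hF, eDim_ge_near (dPsi_surj hsq hF)⟩

/-- (leaf `PR-Main-transport`)  **level preserving reindexing.**
PLAN.  Injective linear map `ker (Th X (T W') (T W')) → ker (Th Y W' W')`, `(L, A) ↦ (L.submatrix τ τ, (A i).submatrix (ρ i) (ρ i))`:
`(M.submatrix e.symm f.symm)`-calculus: `Matrix.submatrix_mul_equiv`, `submatrix_submatrix`, `Equiv.symm_comp_self`, `submatrix_id_id`; block triangularity: `BlockTriangular.submatrix` and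
`X i ∘ ρ i = Y i`.  `LinearMap.finrank_le_finrank_of_injective`. -/
theorem eDim_transport {I I' : Type} [Fintype I] [DecidableEq I] [Fintype I'] [DecidableEq I'] (X : Fin 3 → I → ℝ)
    (Y : Fin 3 → I' → ℝ) (τ : I' ≃ I) (ρ : Fin 3 → I' ≃ I) (h : ∀ i c, X i (ρ i c) = Y i c) (W' : Tgt I') :
    eDim X (fun i => (W' i).submatrix τ.symm (ρ i).symm) ≤ eDim Y W' := by
  have hXY : ∀ i, X i ∘ ρ i = Y i := fun i => funext (h i)
  let Φ : Src X →ₗ[ℂ] Src Y :=
    { toFun := fun u => (u.1.submatrix τ τ, fun i => ⟨(u.2 i : Matrix I I ℂ).submatrix (ρ i) (ρ i), by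
        have := (u.2 i).2.submatrix (f := ρ i)
        rw [hXY] at this
        exact this⟩)
      map_add' := fun u v => rfl
      map_smul' := fun t u => rfl }
  have hΦ : Function.Injective Φ := by
    intro u v huv
    have h1 : u.1.submatrix τ τ = v.1.submatrix τ τ := congrArg Prod.fst huv
    have h2 : ∀ i, (u.2 i : Matrix I I ℂ).submatrix (ρ i) (ρ i) = (v.2 i : Matrix I I ℂ).submatrix (ρ i) (ρ i) :=
      fun i => congrArg (fun w : Src Y => (w.2 i : Matrix I' I' ℂ)) huv
    refine Prod.ext ?_ (funext fun i => Subtype.ext ?_)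
    · ext a c
      have := congrFun (congrFun h1 (τ.symm a)) (τ.symm c)
      simpa using this
    · ext a c
      have := congrFun (congrFun (h2 i) ((ρ i).symm a)) ((ρ i).symm c)
      simpa using this
  have hker : ∀ u ∈ LinearMap.ker (Th X (fun i => (W' i).submatrix τ.symm (ρ i).symm)
      (fun i => (W' i).submatrix τ.symm (ρ i).symm)), Φ u ∈ LinearMap.ker (Th Y W' W') := by
    intro u hu
    rw [LinearMap.mem_ker] at hu ⊢
    funext i
    have h1 := congrFun hu i
    rw [Th_apply] at h1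
    have h2 : (u.1 * (W' i).submatrix τ.symm (ρ i).symm).submatrix τ (ρ i)
        - ((W' i).submatrix τ.symm (ρ i).symm * (u.2 i : Matrix I I ℂ)).submatrix τ (ρ i) = 0 := by
      have := congrArg (fun M : Matrix I I ℂ => M.submatrix τ (ρ i)) h1
      exact this
    rw [← submatrix_mul_equiv _ _ τ τ (ρ i), ← submatrix_mul_equiv _ _ τ (ρ i) (ρ i)] at h2
    simp only [submatrix_submatrix, Equiv.symm_comp_self, submatrix_id_id] at h2
    exact h2
  let f : LinearMap.ker (Th X (fun i => (W' i).submatrix τ.symm (ρ i).symm)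
      (fun i => (W' i).submatrix τ.symm (ρ i).symm)) →ₗ[ℂ] LinearMap.ker (Th Y W' W') :=
    (Φ.domRestrict _).codRestrict _ fun u => hker u.1 u.2
  have hf : Function.Injective f := by
    intro u v huv
    have : Φ u.1 = Φ v.1 := congrArg Subtype.val huv
    exact Subtype.ext (hΦ this)
  exact LinearMap.finrank_le_finrank_of_injective hf

/-- (leaf `PR-Main-equiv`)  **existence of level preserving bijections.**
PLAN.  `Equiv.ofFiberEquiv` for `f c = y c.1` on `Fin h × Fin r` and `f' p = x p.1` on `Fin r × Fin h`; the fibres over `a` have `r * #{y = a}` and `h * #{x = a}` elements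
(`Fintype.card_subtype`, the filter is a product `Finset.filter_product`/`Finset.card_product`, or `Fintype.card_congr` with `{c // y c = a} × Fin r`); `Fintype.equivOfCardEq`;
`Equiv.ofFiberEquiv_map`. -/
theorem exists_level_equiv {r h : ℕ} (x : Fin r → ℝ) (y : Fin h → ℝ)
    (prop : ∀ a : ℝ, h * (Finset.univ.filter fun j => x j = a).card = r * (Finset.univ.filter fun j => y j = a).card) :
    ∃ ρ : Fin h × Fin r ≃ Fin r × Fin h, ∀ c, x (ρ c).1 = y c.1 := by
  have key : ∀ a : ℝ, Nonempty ({c : Fin h × Fin r // y c.1 = a} ≃ {p : Fin r × Fin h // x p.1 = a}) := fun a => by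
    refine ⟨Fintype.equivOfCardEq ?_⟩
    rw [Fintype.card_subtype, Fintype.card_subtype]
    have e1 : (Finset.univ.filter fun c : Fin h × Fin r => y c.1 = a)
        = (Finset.univ.filter fun j => y j = a) ×ˢ (Finset.univ : Finset (Fin r)) := by
      ext ⟨c, d⟩; simp
    have e2 : (Finset.univ.filter fun c : Fin r × Fin h => x c.1 = a)
        = (Finset.univ.filter fun j => x j = a) ×ˢ (Finset.univ : Finset (Fin h)) := by
      ext ⟨c, d⟩; simp
    rw [e1, e2, Finset.card_product, Finset.card_product, Finset.card_univ, Finset.card_univ, Fintype.card_fin,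
      Fintype.card_fin, mul_comm, ← prop a, mul_comm]
  refine ⟨Equiv.ofFiberEquiv (f := fun c : Fin h × Fin r => y c.1) (g := fun p : Fin r × Fin h => x p.1)
    (fun a => Classical.choice (key a)), fun c => ?_⟩
  exact Equiv.ofFiberEquiv_map (f := fun c : Fin h × Fin r => y c.1) (g := fun p : Fin r × Fin h => x p.1)
    (fun a => Classical.choice (key a)) c

/-- (leaf `PR-Main-line`)  **comparison along a complex line.**
PLAN.  `g t = W + t • (W'' - W)`; `Th X (g t) (g t) = Th X W W + t • Th X (W'' - W) (W'' - W)` (`Th_add_smul_both`), and at `t = 1` it is `Th X W'' W''`.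
`pr_finite_ker_gt` with `s₀ = 1`: off a finite set `eDim X (g t) ≤ eDim X W''`.  `t ↦ g t` is continuous with `g 0 = W`, so `∀ᶠ t in 𝓝 0, b ≤ eDim X (g t)`;
a neighbourhood of `0` in `ℂ` is infinite (`infinite_of_mem_nhds`), so it is not contained in the finite set. -/
theorem le_of_near {I : Type} [Fintype I] [DecidableEq I] (X : Fin 3 → I → ℝ) (W W'' : Tgt I) (b : ℕ)
    (h : ∀ᶠ g' in 𝓝 W, b ≤ eDim X g') : b ≤ eDim X W'' := by
  obtain ⟨D, hD⟩ : ∃ D, D = W'' - W := ⟨_, rfl⟩
  have hfin := pr_finite_ker_gt (Th X W W) (Th X D D) 1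
  have e : ∀ t : ℂ, Th X (W + t • D) (W + t • D) = Th X W W + t • Th X D D := Th_add_smul_both X W D
  have hc : Continuous fun t : ℂ => W + t • D := by fun_prop
  have h0 : ∀ᶠ t in 𝓝 (0 : ℂ), b ≤ eDim X (W + t • D) := by
    have h1 : Filter.Tendsto (fun t : ℂ => W + t • D) (𝓝 0) (𝓝 W) := by
      have := hc.tendsto 0
      simpa using this
    exact h1.eventually h
  have hinf : {t : ℂ | b ≤ eDim X (W + t • D)}.Infinite := infinite_of_mem_nhds 0 h0
  obtain ⟨t, ht1, ht2⟩ := hinf.exists_notMem_finite hfin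
  have h1 : W + (1 : ℂ) • D = W'' := by rw [hD, one_smul]; abel
  have ht1' : b ≤ eDim X (W + t • D) := ht1
  have ht2' : ¬ (finrank ℂ (LinearMap.ker (Th X W W + (1 : ℂ) • Th X D D))
      < finrank ℂ (LinearMap.ker (Th X W W + t • Th X D D))) := ht2
  rw [← e, ← e, h1, not_lt] at ht2'
  exact ht1'.trans ht2'

/-- **half of profile rigidity.**  PROVED from the leaves. -/
theorem pr_le {r h : ℕ} (hr : 0 < r) (hh : 0 < h) (x : Fin 3 → Fin r → ℝ) (y : Fin 3 → Fin h → ℝ) {g : Tgt (Fin r)}
    {g' : Tgt (Fin h)} (hx : Sq x) (hy : Sq y) (hg : Brick x g) (hg' : Brick y g')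
    (prop : ∀ i (a : ℝ), h * (Finset.univ.filter fun j => x i j = a).card
      = r * (Finset.univ.filter fun j => y i j = a).card) : h ≤ r := by
  have : Nonempty (Fin r) := ⟨⟨0, hr⟩⟩
  have : Nonempty (Fin h) := ⟨⟨0, hh⟩⟩
  obtain ⟨W, -, hW⟩ := pr_side hx hg h
  obtain ⟨W', hW', -⟩ := pr_side hy hg' r
  have hρ := fun i => exists_level_equiv (x i) (y i) (prop i)
  choose ρ hρ using hρ
  have h1 := le_of_near (lvl h x) W (fun i => (W' i).submatrix (Equiv.prodComm _ _).symm (ρ i).symm) h hW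
  have h2 := eDim_transport (lvl h x) (lvl r y) (Equiv.prodComm _ _) ρ (fun i c => hρ i c) W'
  exact h1.trans (h2.trans hW')

/-- **Lemma 4.1 (profile rigidity)** in raw form; `s34_profile_rigidity` of `S34/Link.lean` is this statement with `IrrTriple`, `tieCount`, `lvlMult` unfolded. -/
theorem pr_main {r h : ℕ} (hr : 0 < r) (hh : 0 < h)
    (x : Fin 3 → Fin r → ℝ) (y : Fin 3 → Fin h → ℝ)
    (X : Fin 3 → Matrix (Fin r) (Fin r) ℂ) (Y : Fin 3 → Matrix (Fin h) (Fin h) ℂ)
    (oX : ∀ i, ∃ g : Matrix.unitaryGroup (Fin r) ℂ,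
      X i = g.1 * Matrix.diagonal (fun j => ((x i j : ℝ) : ℂ)) * g.1.conjTranspose)
    (sX : X 0 + X 1 + X 2 = 0)
    (iX : ∀ Z : Matrix (Fin r) (Fin r) ℂ, (∀ i, Z * X i = X i * Z) → ∃ c : ℂ, Z = c • 1)
    (oY : ∀ i, ∃ g : Matrix.unitaryGroup (Fin h) ℂ,
      Y i = g.1 * Matrix.diagonal (fun j => ((y i j : ℝ) : ℂ)) * g.1.conjTranspose)
    (sY : Y 0 + Y 1 + Y 2 = 0)
    (iY : ∀ Z : Matrix (Fin h) (Fin h) ℂ, (∀ i, Z * Y i = Y i * Z) → ∃ c : ℂ, Z = c • 1)
    (nX : ∑ i, (Finset.univ.filter fun p : Fin r × Fin r => x i p.1 = x i p.2).card = r ^ 2)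
    (nY : ∑ i, (Finset.univ.filter fun p : Fin h × Fin h => y i p.1 = y i p.2).card = h ^ 2)
    (prop : ∀ i (a : ℝ), h * (Finset.univ.filter fun j => x i j = a).card
      = r * (Finset.univ.filter fun j => y i j = a).card) : r = h := by
  choose g hg using oX
  choose g' hg' using oY
  have bx := brick_of_irr x X g hg sX iX
  have by' := brick_of_irr y Y g' hg' sY iY
  have qx : Sq x := sq_of_tie x (by rw [nX, Fintype.card_fin])
  have qy : Sq y := sq_of_tie y (by rw [nY, Fintype.card_fin])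
  exact le_antisymm (pr_le hh hr y x qy qx by' bx fun i a => (prop i a).symm) (pr_le hr hh x y qx qy bx by' prop)

end Claimed.Agent.R282.PR
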