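import Claimed.Agent.R282.S34.PR.Fam

/-!
# Row 282, profile rigidity.  File 4: direct sums (block calculus), kernel bound, surjectivity of the linearised map

See the master plan in `PR/Lin.lean`.  Index set of the direct sum: `K × Fin b` (Mathlib's `Matrix.blockDiagonal`), levels `lvl b x i (a, j) = x i a`.
-/

set_option autoImplicit false

open Module Matrix

namespace Claimed.Agent.R282.PR

variable {K : Type} [Fintype K] [DecidableEq K] {b : ℕ}

/-- levels of a direct sum of `b` configurations with levels `x` -/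
def lvl (b : ℕ) (x : Fin 3 → K → ℝ) : Fin 3 → K × Fin b → ℝ := fun i p => x i p.1

/-- direct sum of configurations -/
def bd (γ : Fin b → Tgt K) : Tgt (K × Fin b) := fun i => blockDiagonal (fun j => γ j i)

/-- the block `(j, k)` -/
def blk (M : Matrix (K × Fin b) (K × Fin b) ℂ) (j k : Fin b) : Matrix K K ℂ := fun a c => M (a, j) (c, k)

/-- assemble a matrix from its blocks -/
def ofBlk (B : Fin b → Fin b → Matrix K K ℂ) : Matrix (K × Fin b) (K × Fin b) ℂ := fun p q => B p.2 q.2 p.1 q.1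

omit [Fintype K] [DecidableEq K] in
@[simp] theorem blk_ofBlk (B : Fin b → Fin b → Matrix K K ℂ) (j k : Fin b) : blk (ofBlk B) j k = B j k := rfl

omit [Fintype K] [DecidableEq K] in
theorem blk_ext {M N : Matrix (K × Fin b) (K × Fin b) ℂ} (h : ∀ j k, blk M j k = blk N j k) : M = N := by
  ext ⟨a, j⟩ ⟨c, k⟩
  exact congrFun (congrFun (h j k) a) c

omit [Fintype K] [DecidableEq K] in
@[simp] theorem blk_add (M N : Matrix (K × Fin b) (K × Fin b) ℂ) (j k : Fin b) : blk (M + N) j k = blk M j k + blk N j k := rfl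

omit [Fintype K] [DecidableEq K] in
@[simp] theorem blk_sub (M N : Matrix (K × Fin b) (K × Fin b) ℂ) (j k : Fin b) : blk (M - N) j k = blk M j k - blk N j k := rfl

omit [Fintype K] [DecidableEq K] in
@[simp] theorem blk_zero (j k : Fin b) : blk (0 : Matrix (K × Fin b) (K × Fin b) ℂ) j k = 0 := rfl

/-- (leaf `PR-Blk-calc`)  `Matrix.mul_apply`, `Fintype.sum_prod_type`, `blockDiagonal_apply`, `Finset.sum_ite_eq`. -/
theorem blk_mul_blockDiagonal (M : Matrix (K × Fin b) (K × Fin b) ℂ) (D : Fin b → Matrix K K ℂ) (j k : Fin b) :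
    blk (M * blockDiagonal D) j k = blk M j k * D k := by
  ext a c
  simp only [blk, Matrix.mul_apply, Fintype.sum_prod_type, blockDiagonal_apply]
  refine Finset.sum_congr rfl fun e _ => ?_
  rw [Finset.sum_eq_single k]
  · simp
  · intro l _ hl
    simp [hl]
  · intro h
    exact absurd (Finset.mem_univ _) h

/-- (leaf `PR-Blk-calc`) -/
theorem blk_blockDiagonal_mul (M : Matrix (K × Fin b) (K × Fin b) ℂ) (D : Fin b → Matrix K K ℂ) (j k : Fin b) :
    blk (blockDiagonal D * M) j k = D j * blk M j k := by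
  ext a c
  simp only [blk, Matrix.mul_apply, Fintype.sum_prod_type, blockDiagonal_apply]
  refine Finset.sum_congr rfl fun e _ => ?_
  rw [Finset.sum_eq_single j]
  · simp
  · intro l _ hl
    simp [Ne.symm hl]
  · intro h
    exact absurd (Finset.mem_univ _) h

omit [Fintype K] [DecidableEq K] in
theorem blk_blockDiagonal (D : Fin b → Matrix K K ℂ) (j k : Fin b) :
    blk (blockDiagonal D) j k = if j = k then D j else 0 := by
  ext a c
  simp only [blk, blockDiagonal_apply]
  split_ifs <;> rfl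

omit [Fintype K] [DecidableEq K] in
theorem blockTriangular_lvl_iff (x : Fin 3 → K → ℝ) (i : Fin 3) (M : Matrix (K × Fin b) (K × Fin b) ℂ) :
    M.BlockTriangular (lvl b x i) ↔ ∀ j k, (blk M j k).BlockTriangular (x i) :=
  ⟨fun h _ _ _ _ hac => h hac, fun h p q hpq => h p.2 q.2 hpq⟩

/-- the block `(j, k)` of an element of the source -/
def srcBlk (x : Fin 3 → K → ℝ) (u : Src (lvl b x)) (j k : Fin b) : Src x :=
  (blk u.1 j k, fun i => ⟨blk (u.2 i : Matrix (K × Fin b) (K × Fin b) ℂ) j k,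
    (blockTriangular_lvl_iff x i (u.2 i : Matrix (K × Fin b) (K × Fin b) ℂ)).1 (u.2 i).2 j k⟩)

/-- assemble an element of the source from its blocks -/
def srcOfBlk (x : Fin 3 → K → ℝ) (U : Fin b → Fin b → Src x) : Src (lvl b x) :=
  (ofBlk fun j k => (U j k).1,
    fun i => ⟨ofBlk fun j k => ((U j k).2 i : Matrix K K ℂ), (blockTriangular_lvl_iff x i _).2 fun j k => ((U j k).2 i).2⟩)

omit [Fintype K] [DecidableEq K] in
@[simp] theorem srcBlk_srcOfBlk (x : Fin 3 → K → ℝ) (U : Fin b → Fin b → Src x) (j k : Fin b) :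
    srcBlk x (srcOfBlk x U) j k = U j k := rfl

omit [Fintype K] [DecidableEq K] in
theorem srcBlk_ext {x : Fin 3 → K → ℝ} {u v : Src (lvl b x)} (h : ∀ j k, srcBlk x u j k = srcBlk x v j k) : u = v := by
  refine Prod.ext (blk_ext fun j k => congrArg Prod.fst (h j k)) (funext fun i => Subtype.ext (blk_ext fun j k => ?_))
  exact congrArg (fun w : Src x => (w.2 i : Matrix K K ℂ)) (h j k)

/-- **the pair form of a direct sum is the pair form of the blocks** -/
theorem blk_Th (x : Fin 3 → K → ℝ) (γ γ' : Fin b → Tgt K) (u : Src (lvl b x)) (i : Fin 3) (j k : Fin b) :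
    blk (Th (lvl b x) (bd γ) (bd γ') u i) j k = Th x (γ k) (γ' j) (srcBlk x u j k) i := by
  simp only [Th_apply, bd, blk_sub, blk_mul_blockDiagonal, blk_blockDiagonal_mul]
  rfl

/-- block scalar matrices -/
def dg (c : Fin b → ℂ) : Matrix (K × Fin b) (K × Fin b) ℂ := diagonal fun p => c p.2

omit [Fintype K] in
theorem blk_dg (c : Fin b → ℂ) (j k : Fin b) : blk (dg c : Matrix (K × Fin b) (K × Fin b) ℂ) j k = if j = k then c j • 1 else 0 := by
  ext a a'
  by_cases hjk : j = k
  · subst hjk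
    by_cases ha : a = a'
    · subst ha; simp [blk, dg]
    · simp [blk, dg, ha]
  · simp [blk, dg, hjk]

/-- the block idempotents as elements of the source -/
def del (x : Fin 3 → K → ℝ) : (Fin b → ℂ) →ₗ[ℂ] Src (lvl b x) where
  toFun c := (dg c, fun _ => ⟨dg c, blockTriangular_diagonal _⟩)
  map_add' c d := by
    refine Prod.ext ?_ (funext fun i => Subtype.ext ?_) <;>
    · simp only [dg, Pi.add_apply]
      exact (diagonal_add _ _).symm
  map_smul' t c := by
    have e : (dg (t • c) : Matrix (K × Fin b) (K × Fin b) ℂ) = t • dg c := by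
      simp only [dg, Pi.smul_apply]
      exact diagonal_smul t (fun p : K × Fin b => c p.2)
    exact Prod.ext e (funext fun i => Subtype.ext e)

/-- **endomorphisms of a direct sum of pairwise Hom-free bricks** -/
theorem ker_le_range_del {x : Fin 3 → K → ℝ} {γ : Fin b → Tgt K} {ξ : Tgt K} (h : Fam x b γ ξ) :
    LinearMap.ker (Th (lvl b x) (bd γ) (bd γ)) ≤ LinearMap.range (del (b := b) x) := by
  intro u hu
  rw [LinearMap.mem_ker] at hu
  have hb : ∀ j k, Th x (γ k) (γ j) (srcBlk x u j k) = 0 := fun j k => by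
    funext i
    rw [← blk_Th, hu]
    rfl
  have hd : ∀ j, ∃ c : ℂ, srcBlk x u j j = c • iota x := fun j => (h.bt j).brick _ (hb j j)
  choose c hc using hd
  refine ⟨c, srcBlk_ext fun j k => ?_⟩
  have e : srcBlk x (del (b := b) x c) j k = if j = k then c j • iota x else 0 := by
    refine Prod.ext ?_ (funext fun i => Subtype.ext ?_)
    · show blk (dg c) j k = _
      rw [blk_dg]
      split_ifs <;> rfl
    · show blk (dg c) j k = _
      rw [blk_dg]
      split_ifs <;> rfl
  rw [e]
  by_cases hjk : j = k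
  · subst hjk
    rw [if_pos rfl, hc]
  · rw [if_neg hjk]
    exact (h.free k j (Ne.symm hjk) (by rw [hb, map_zero])).symm

theorem eDim_bd_le {x : Fin 3 → K → ℝ} {γ : Fin b → Tgt K} {ξ : Tgt K} (h : Fam x b γ ξ) :
    eDim (lvl b x) (bd γ) ≤ b := by
  calc eDim (lvl b x) (bd γ) ≤ finrank ℂ (LinearMap.range (del (b := b) x)) :=
        Submodule.finrank_mono (ker_le_range_del h)
    _ ≤ finrank ℂ (Fin b → ℂ) := LinearMap.finrank_range_le _
    _ = b := by simp

/-- the linearisation of `(k, σ, p) ↦ ((1 + k) G_i(σ) (1 + p_i))_i` at `(0, σ⁰, 0)`, `p = - A` -/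
def dPsi (x : Fin 3 → K → ℝ) (W : Tgt (K × Fin b)) (ξ : Tgt K) : (Src (lvl b x) × (Fin b → ℂ)) →ₗ[ℂ] Tgt (K × Fin b) :=
  (Th (lvl b x) W W).comp (LinearMap.fst _ _ _) +
    (LinearMap.pi fun i => (
      { toFun := fun σ : Fin b → ℂ => blockDiagonal fun j => σ j • ξ i
        map_add' := fun σ τ => by
          rw [← blockDiagonal_add]; congr 1; funext j; simp [add_smul]
        map_smul' := fun t σ => by
          rw [RingHom.id_apply, ← blockDiagonal_smul]; congr 1; funext j; simp [smul_smul] } :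
        (Fin b → ℂ) →ₗ[ℂ] Matrix (K × Fin b) (K × Fin b) ℂ)).comp (LinearMap.snd _ _ _)

theorem dPsi_apply (x : Fin 3 → K → ℝ) (W : Tgt (K × Fin b)) (ξ : Tgt K) (u : Src (lvl b x)) (σ : Fin b → ℂ) (i : Fin 3) :
    dPsi x W ξ (u, σ) i = Th (lvl b x) W W u i + blockDiagonal fun j => σ j • ξ i := rfl

/-- (leaf `PR-Blk-diag`)  PLAN.  `S : Src x × ℂ →ₗ Tgt K`, `(u, c) ↦ Th x g g u + c • ξ`.  By `h`, `ker S ≤ span {(iota x, 0)}`, so `finrank (ker S) ≤ 1` (`finrank_span_le_card`/`finrank_span_singleton`);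
`finrank (Src x × ℂ) = finrank (Tgt K) + 1` (`finrank_Src hsq`, `Module.finrank_prod`, `Module.finrank_self`); rank-nullity (`LinearMap.finrank_range_add_finrank_ker`):
`finrank (range S) ≥ finrank (Tgt K)`, so `range S = ⊤` (`Submodule.eq_top_of_finrank_eq`, `Submodule.finrank_le`). -/
theorem BT.surj {x : Fin 3 → K → ℝ} (hsq : Sq x) {g ξ : Tgt K} (h : BT x g ξ) (Y : Tgt K) :
    ∃ (u : Src x) (c : ℂ), Th x g g u + c • ξ = Y := by
  let S : (Src x × ℂ) →ₗ[ℂ] Tgt K := (Th x g g).coprod (LinearMap.toSpanSingleton ℂ (Tgt K) ξ)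
  have hS : ∀ (u : Src x) (c : ℂ), S (u, c) = Th x g g u + c • ξ := fun u c => by
    simp [S, LinearMap.toSpanSingleton_apply]
  have hker : LinearMap.ker S ≤ Submodule.span ℂ {((iota x, 0) : Src x × ℂ)} := by
    rintro ⟨u, c⟩ huc
    rw [LinearMap.mem_ker, hS] at huc
    obtain ⟨hc, a, ha⟩ := h u c huc
    rw [Submodule.mem_span_singleton]
    refine ⟨a, ?_⟩
    rw [hc, ha]
    simp
  have h1 : finrank ℂ (LinearMap.ker S) ≤ 1 :=
    (Submodule.finrank_mono hker).trans
      ((finrank_span_le_card ({((iota x, 0) : Src x × ℂ)} : Set (Src x × ℂ))).trans (by simp))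
  have h2 : finrank ℂ (Src x × ℂ) = finrank ℂ (Tgt K) + 1 := by
    rw [Module.finrank_prod, finrank_Src hsq, Module.finrank_self]
  have h3 := LinearMap.finrank_range_add_finrank_ker S
  have h4 : finrank ℂ (LinearMap.range S) ≤ finrank ℂ (Tgt K) := Submodule.finrank_le _
  have h5 : LinearMap.range S = ⊤ := Submodule.eq_top_of_finrank_eq (by omega)
  have h6 : Y ∈ LinearMap.range S := by rw [h5]; exact Submodule.mem_top
  obtain ⟨⟨u, c⟩, huc⟩ := h6
  exact ⟨u, c, by rw [← hS]; exact huc⟩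

/-- **the linearised map is onto** -/
theorem dPsi_surj {x : Fin 3 → K → ℝ} (hsq : Sq x) {γ : Fin b → Tgt K} {ξ : Tgt K} (h : Fam x b γ ξ) :
    Function.Surjective (dPsi x (bd γ) ξ) := by
  intro Y
  -- off-diagonal blocks
  have hoff : ∀ j k, j ≠ k → ∃ u : Src x, Th x (γ k) (γ j) u = fun i => blk (Y i) j k := fun j k hjk =>
    Th_surj_of_inj hsq (h.free k j (Ne.symm hjk)) _
  -- diagonal blocks
  have hdiag : ∀ j, ∃ (u : Src x) (c : ℂ), Th x (γ j) (γ j) u + c • ξ = fun i => blk (Y i) j j := fun j =>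
    (h.bt j).surj hsq _
  choose! U hU using hoff
  choose V c hV using hdiag
  refine ⟨(srcOfBlk x fun j k => if j = k then V j else U j k, c), ?_⟩
  funext i
  refine blk_ext fun j k => ?_
  rw [dPsi_apply, blk_add, blk_Th, srcBlk_srcOfBlk, blk_blockDiagonal]
  by_cases hjk : j = k
  · subst hjk
    rw [if_pos rfl, if_pos rfl]
    exact congrFun (hV j) i
  · rw [if_neg hjk, if_neg hjk, add_zero]
    exact congrFun (hU j k hjk) i

end Claimed.Agent.R282.PR
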