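import Claimed.Agent.R282.S34.PR.Par

/-!
# Row 282, profile rigidity.  File 3: bricks from irreducible triples; families of pairwise Hom-free bricks

See the master plan in `PR/Lin.lean`.
-/

set_option autoImplicit false

open Module Matrix

namespace Claimed.Agent.R282.PR

variable {K : Type} [Fintype K] [DecidableEq K]

/-- only scalar endomorphisms -/
def Brick (x : Fin 3 → K → ℝ) (g : Tgt K) : Prop := ∀ u : Src x, Th x g g u = 0 → ∃ c : ℂ, u = c • iota x

/-- brick + the direction `ξ` is transversal to the orbit -/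
def BT (x : Fin 3 → K → ℝ) (g ξ : Tgt K) : Prop :=
  ∀ (u : Src x) (c : ℂ), Th x g g u + c • ξ = 0 → c = 0 ∧ ∃ a : ℂ, u = a • iota x

/-- `b` pairwise Hom-free bricks with a common transversal direction -/
structure Fam (x : Fin 3 → K → ℝ) (b : ℕ) (γ : Fin b → Tgt K) (ξ : Tgt K) : Prop where
  bt : ∀ j, BT x (γ j) ξ
  free : ∀ j k, j ≠ k → Function.Injective (Th x (γ j) (γ k))

/-! ### the trace argument -/

/-- (leaf `PR-Brick-tr`)  PLAN.  `trace (Aᴴ D A) = ∑_j ∑_k conj (A k j) d k A k j`, `trace (Aᴴ A D) = ∑_j ∑_k conj (A k j) A k j d j`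
(`Matrix.trace`, `Matrix.mul_apply`, `Matrix.diagonal_mul`, `Matrix.mul_diagonal`, `conjTranspose_apply`), `conj z * z = ‖z‖²` (`Complex.conj_mul'`), `Finset.sum_comm`. -/
theorem pr_trace_diag (d : K → ℝ) (A : Matrix K K ℂ) :
    trace (Aᴴ * diagonal (fun j => ((d j : ℝ) : ℂ)) * A) - trace (Aᴴ * A * diagonal (fun j => ((d j : ℝ) : ℂ)))
      = ((∑ k, ∑ j, (d k - d j) * ‖A k j‖ ^ 2 : ℝ) : ℂ) := by
  have hz : ∀ z : ℂ, star z * z = ((‖z‖ ^ 2 : ℝ) : ℂ) := fun z => by
    rw [Complex.star_def, Complex.conj_mul']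
    push_cast
    rfl
  have h1 : trace (Aᴴ * diagonal (fun j => ((d j : ℝ) : ℂ)) * A)
      = ∑ k, ∑ j, ((d k * ‖A k j‖ ^ 2 : ℝ) : ℂ) := by
    simp only [trace, diag_apply]
    rw [Finset.sum_comm]
    refine Finset.sum_congr rfl fun j _ => ?_
    rw [Matrix.mul_apply]
    refine Finset.sum_congr rfl fun k _ => ?_
    rw [mul_diagonal, conjTranspose_apply, Complex.ofReal_mul, ← hz]
    ring
  have h2 : trace (Aᴴ * A * diagonal (fun j => ((d j : ℝ) : ℂ)))
      = ∑ k, ∑ j, ((d j * ‖A k j‖ ^ 2 : ℝ) : ℂ) := by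
    simp only [trace, diag_apply]
    rw [Finset.sum_comm]
    refine Finset.sum_congr rfl fun j _ => ?_
    rw [mul_diagonal, Matrix.mul_apply, Finset.sum_mul]
    refine Finset.sum_congr rfl fun k _ => ?_
    rw [conjTranspose_apply, Complex.ofReal_mul, ← hz]
    ring
  rw [h1, h2, ← Finset.sum_sub_distrib, Complex.ofReal_sum]
  refine Finset.sum_congr rfl fun k _ => ?_
  rw [← Finset.sum_sub_distrib, Complex.ofReal_sum]
  refine Finset.sum_congr rfl fun j _ => ?_
  rw [← Complex.ofReal_sub]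
  congr 1
  ring

/-- (leaf `PR-Brick-conj`)  PLAN.  `gᴴ g = 1 = g gᴴ` (`Matrix.mem_unitaryGroup_iff`, `..iff'`), so `L = g A gᴴ`, `Lᴴ = g Aᴴ gᴴ`; cancel and use `Matrix.trace_mul_cycle`/`trace_mul_comm`. -/
theorem pr_trace_conj (g : Matrix.unitaryGroup K ℂ) (D A L : Matrix K K ℂ) (h : L * g.1 = g.1 * A) :
    trace (Lᴴ * (g.1 * D * g.1ᴴ) * L) - trace (Lᴴ * L * (g.1 * D * g.1ᴴ)) = trace (Aᴴ * D * A) - trace (Aᴴ * A * D) := by
  obtain ⟨U, hU⟩ : ∃ U : Matrix K K ℂ, U = g.1 := ⟨_, rfl⟩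
  have h1 : Uᴴ * U = 1 := by rw [hU]; exact Matrix.mem_unitaryGroup_iff'.1 g.2
  have h2 : U * Uᴴ = 1 := by rw [hU]; exact Matrix.mem_unitaryGroup_iff.1 g.2
  rw [← hU] at h ⊢
  have hL : L = U * A * Uᴴ := by
    rw [← h, mul_assoc, h2, mul_one]
  have hLH : Lᴴ = U * Aᴴ * Uᴴ := by
    rw [hL, conjTranspose_mul, conjTranspose_mul, conjTranspose_conjTranspose, mul_assoc]
  have c1 : ∀ X : Matrix K K ℂ, Uᴴ * (U * X) = X := fun X => by rw [← mul_assoc, h1, one_mul]
  have t : ∀ M : Matrix K K ℂ, trace (U * M * Uᴴ) = trace M := fun M => by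
    rw [trace_mul_cycle, h1, one_mul]
  have e1 : Lᴴ * (U * D * Uᴴ) * L = U * (Aᴴ * D * A) * Uᴴ := by
    rw [hLH, hL]
    simp only [mul_assoc, c1]
  have e2 : Lᴴ * L * (U * D * Uᴴ) = U * (Aᴴ * A * D) * Uᴴ := by
    rw [hLH, hL]
    simp only [mul_assoc, c1]
  rw [e1, e2, t, t]

/-- **bricks from irreducible Hermitian zero-sum triples** (leaf `PR-Brick-main`).
PLAN.  `u = (L, A)`, `L g_i = g_i A_i`.  `t_i := ∑_{k,j} (x_i k - x_i j) ‖A_i k j‖²`; every term is `≤ 0` (`A_i k j ≠ 0 → ¬ x_i j < x_i k`).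
`pr_trace_conj`, `pr_trace_diag`: `(t_i : ℂ) = trace (Lᴴ X_i L) - trace (Lᴴ L X_i)`; the sum over `i` (`Fin.sum_univ_three`) is `trace (Lᴴ (∑ X_i) L) - trace (Lᴴ L ∑ X_i) = 0`.
So all terms vanish (`Finset.sum_eq_zero_iff_of_nonpos`): `A_i k j (x_i k - x_i j) = 0`, i.e. `A_i D_i = D_i A_i` (entrywise), hence `L X_i = X_i L`
(`L g D gᴴ = g A D gᴴ = g D A gᴴ = g D gᴴ L`, using `A gᴴ = gᴴ L`).  `hirr`: `L = c • 1`, `A_i = gᴴ L g = c • 1`; `Prod.ext`, `Subtype.ext`. -/
theorem brick_of_irr (x : Fin 3 → K → ℝ) (X : Tgt K) (g : Fin 3 → Matrix.unitaryGroup K ℂ)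
    (hX : ∀ i, X i = (g i).1 * diagonal (fun j => ((x i j : ℝ) : ℂ)) * (g i).1ᴴ)
    (hsum : X 0 + X 1 + X 2 = 0)
    (hirr : ∀ Z : Matrix K K ℂ, (∀ i, Z * X i = X i * Z) → ∃ c : ℂ, Z = c • 1) :
    Brick x (fun i => (g i).1) := by
  rintro ⟨L, A⟩ hu
  have hLg : ∀ i, L * (g i).1 = (g i).1 * (A i : Matrix K K ℂ) := fun i => by
    have := congrFun hu i
    rw [Th_apply] at this
    exact sub_eq_zero.1 this
  obtain ⟨t, ht⟩ : ∃ t : Fin 3 → ℝ, t = fun i =>
      ∑ k, ∑ j, (x i k - x i j) * ‖(A i : Matrix K K ℂ) k j‖ ^ 2 := ⟨_, rfl⟩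
  have hterm : ∀ i k j, (x i k - x i j) * ‖(A i : Matrix K K ℂ) k j‖ ^ 2 ≤ 0 := by
    intro i k j
    rcases lt_or_ge (x i j) (x i k) with hlt | hge
    · rw [(A i).2 hlt]
      simp
    · exact mul_nonpos_of_nonpos_of_nonneg (by linarith) (by positivity)
  have htle : ∀ i, t i ≤ 0 := fun i => by
    rw [ht]
    exact Finset.sum_nonpos fun k _ => Finset.sum_nonpos fun j _ => hterm i k j
  have htr : ∀ i, ((t i : ℝ) : ℂ) = trace (Lᴴ * X i * L) - trace (Lᴴ * L * X i) := fun i => by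
    rw [hX i, pr_trace_conj (g i) _ _ L (hLg i), pr_trace_diag, ht]
  have hsum0 : t 0 + t 1 + t 2 = 0 := by
    have h1 : ((t 0 + t 1 + t 2 : ℝ) : ℂ) = 0 := by
      push_cast
      rw [htr 0, htr 1, htr 2]
      have e1 : trace (Lᴴ * X 0 * L) + trace (Lᴴ * X 1 * L) + trace (Lᴴ * X 2 * L)
          = trace (Lᴴ * (X 0 + X 1 + X 2) * L) := by
        simp only [mul_add, add_mul, trace_add]
      have e2 : trace (Lᴴ * L * X 0) + trace (Lᴴ * L * X 1) + trace (Lᴴ * L * X 2)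
          = trace (Lᴴ * L * (X 0 + X 1 + X 2)) := by
        simp only [mul_add, trace_add]
      rw [hsum] at e1 e2
      simp only [mul_zero, zero_mul, trace_zero] at e1 e2
      linear_combination e1 - e2
    exact_mod_cast h1
  have ht0 : ∀ i, t i = 0 := by
    have h0 := htle 0
    have h1 := htle 1
    have h2 := htle 2
    intro i
    fin_cases i
    · change t 0 = 0; linarith
    · change t 1 = 0; linarith
    · change t 2 = 0; linarith
  have hzero : ∀ i k j, (x i k - x i j) * ‖(A i : Matrix K K ℂ) k j‖ ^ 2 = 0 := by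
    intro i k j
    have h1 := ht0 i
    rw [ht] at h1
    have h2 := (Finset.sum_eq_zero_iff_of_nonpos
      (fun k _ => Finset.sum_nonpos fun j _ => hterm i k j)).1 h1 k (Finset.mem_univ _)
    exact (Finset.sum_eq_zero_iff_of_nonpos (fun j _ => hterm i k j)).1 h2 j (Finset.mem_univ _)
  have hcomm : ∀ i, (A i : Matrix K K ℂ) * diagonal (fun j => ((x i j : ℝ) : ℂ))
      = diagonal (fun j => ((x i j : ℝ) : ℂ)) * (A i : Matrix K K ℂ) := by
    intro i
    ext k j
    rw [mul_diagonal, diagonal_mul]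
    rcases mul_eq_zero.1 (hzero i k j) with h | h
    · have : x i k = x i j := by linarith
      rw [this, mul_comm]
    · have : (A i : Matrix K K ℂ) k j = 0 := by
        rw [← norm_eq_zero]
        exact pow_eq_zero_iff (two_ne_zero) |>.1 h
      rw [this]
      simp
  have hU1 : ∀ i, (g i).1ᴴ * (g i).1 = 1 := fun i => Matrix.mem_unitaryGroup_iff'.1 (g i).2
  have hU2 : ∀ i, (g i).1 * (g i).1ᴴ = 1 := fun i => Matrix.mem_unitaryGroup_iff.1 (g i).2
  have hAg : ∀ i, (A i : Matrix K K ℂ) * (g i).1ᴴ = (g i).1ᴴ * L := fun i => by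
    calc (A i : Matrix K K ℂ) * (g i).1ᴴ = ((g i).1ᴴ * (g i).1) * (A i : Matrix K K ℂ) * (g i).1ᴴ := by
          rw [hU1, one_mul]
      _ = (g i).1ᴴ * (L * (g i).1) * (g i).1ᴴ := by rw [hLg i, mul_assoc (g i).1ᴴ]
      _ = (g i).1ᴴ * L := by rw [mul_assoc, mul_assoc, hU2, mul_one]
  obtain ⟨c, hc⟩ := hirr L fun i => by
    rw [hX i]
    calc L * ((g i).1 * diagonal (fun j => ((x i j : ℝ) : ℂ)) * (g i).1ᴴ)
        = (L * (g i).1) * diagonal (fun j => ((x i j : ℝ) : ℂ)) * (g i).1ᴴ := by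
          simp only [mul_assoc]
      _ = (g i).1 * ((A i : Matrix K K ℂ) * diagonal (fun j => ((x i j : ℝ) : ℂ))) * (g i).1ᴴ := by
          rw [hLg i]; simp only [mul_assoc]
      _ = (g i).1 * diagonal (fun j => ((x i j : ℝ) : ℂ)) * ((A i : Matrix K K ℂ) * (g i).1ᴴ) := by
          rw [hcomm i]; simp only [mul_assoc]
      _ = (g i).1 * diagonal (fun j => ((x i j : ℝ) : ℂ)) * (g i).1ᴴ * L := by
          rw [hAg i]; simp only [mul_assoc]
  refine ⟨c, Prod.ext hc (funext fun i => Subtype.ext ?_)⟩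
  have h3 : (A i : Matrix K K ℂ) = (g i).1ᴴ * L * (g i).1 := by
    rw [← hAg i, mul_assoc, hU1, mul_one]
  change (A i : Matrix K K ℂ) = c • (1 : Matrix K K ℂ)
  rw [h3, hc, mul_smul_comm, mul_one, smul_mul_assoc, hU1]

/-! ### the one-parameter family -/

theorem iota_ne_zero [Nonempty K] (x : Fin 3 → K → ℝ) : iota x ≠ 0 := by
  intro h
  have h1 : (1 : Matrix K K ℂ) = 0 := congrArg Prod.fst h
  exact one_ne_zero h1

/-- the range of the endomorphism pair form is a proper subspace -/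
theorem exists_transversal [Nonempty K] {x : Fin 3 → K → ℝ} (hsq : Sq x) (g : Tgt K) :
    ∃ ξ : Tgt K, ξ ∉ LinearMap.range (Th x g g) := by
  by_contra hcon
  push Not at hcon
  have hs : Function.Surjective (Th x g g) := fun ξ => hcon ξ
  have hi := (LinearMap.injective_iff_surjective_of_finrank_eq_finrank (finrank_Src hsq)).2 hs
  exact iota_ne_zero x (hi (by rw [Th_iota, map_zero]))

theorem bt_of_brick {x : Fin 3 → K → ℝ} {g ξ : Tgt K} (hg : Brick x g) (hξ : ξ ∉ LinearMap.range (Th x g g)) :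
    BT x g ξ := by
  intro u c h
  have hc : c = 0 := by
    by_contra hc
    apply hξ
    refine ⟨(-c⁻¹) • u, ?_⟩
    have h1 : Th x g g u = -(c • ξ) := eq_neg_of_add_eq_zero_left h
    rw [map_smul, h1, smul_neg, neg_smul, neg_neg, smul_smul, inv_mul_cancel₀ hc, one_smul]
  refine ⟨hc, hg u ?_⟩
  rwa [hc, zero_smul, add_zero] at h

theorem BT.brick {x : Fin 3 → K → ℝ} {g ξ : Tgt K} (h : BT x g ξ) : Brick x g := fun u hu =>
  (h u 0 (by rw [hu, zero_smul, add_zero])).2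

theorem BT.notMem {x : Fin 3 → K → ℝ} {g ξ : Tgt K} (h : BT x g ξ) : ξ ∉ LinearMap.range (Th x g g) := by
  rintro ⟨u, hu⟩
  have := (h (-u) 1 (by rw [map_neg, hu, one_smul, neg_add_cancel])).1
  exact one_ne_zero this

/-- (leaf `PR-Fam-bt`)  PLAN.  `C` a complement of `span {iota x}` in `Src x`.  Pencil `S s : C × ℂ → Tgt K`, `(u, c) ↦ Th x (g + s ξ) (g + s ξ) u + c ξ = (Th x g g u + c ξ) + s Th x ξ ξ u`
(`Th_add_smul_both`).  Injective at `s = 0` by `h`.  `pr_finite_not_inj`.  If `S s` is injective and `Th .. u' + c ξ = 0`, write `u' = u + a iota` (`u ∈ C`), use `Th_iota`. -/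
theorem finite_not_bt {x : Fin 3 → K → ℝ} {g ξ : Tgt K} (h : BT x g ξ) : {s : ℂ | ¬ BT x (g + s • ξ) ξ}.Finite := by
  obtain ⟨C, hC⟩ := Submodule.exists_isCompl (Submodule.span ℂ {iota x})
  let A' : (C × ℂ) →ₗ[ℂ] Tgt K :=
    (Th x g g ∘ₗ C.subtype).coprod (LinearMap.toSpanSingleton ℂ (Tgt K) ξ)
  let B' : (C × ℂ) →ₗ[ℂ] Tgt K := (Th x ξ ξ ∘ₗ C.subtype).coprod 0
  have hA' : ∀ (u : C) (a : ℂ), A' (u, a) = Th x g g u + a • ξ := fun u a => by
    simp [A', LinearMap.toSpanSingleton_apply]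
  have hB' : ∀ (u : C) (a : ℂ), B' (u, a) = Th x ξ ξ u := fun u a => by simp [B']
  have hinj0 : Function.Injective (A' + (0 : ℂ) • B') := by
    rw [injective_iff_map_eq_zero]
    rintro ⟨u, a⟩ hua
    have h1 : Th x g g u + a • ξ = 0 := by
      have : (A' + (0 : ℂ) • B') (u, a) = A' (u, a) := by simp
      rw [this, hA'] at hua
      exact hua
    obtain ⟨ha, k, hk⟩ := h u a h1
    have h4 : (u : Src x) ∈ Submodule.span ℂ {iota x} ⊓ C :=
      ⟨by rw [hk]; exact Submodule.smul_mem _ _ (Submodule.mem_span_singleton_self _), u.2⟩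
    rw [hC.inf_eq_bot, Submodule.mem_bot] at h4
    rw [ha]
    exact Prod.ext (Subtype.ext h4) rfl
  have hfin := pr_finite_not_inj (V := C × ℂ) (W := Tgt K) A' B' 0 hinj0
  refine hfin.subset ?_
  intro s hs hinj
  apply hs
  intro u' c hu'
  have hmem : u' ∈ Submodule.span ℂ {iota x} ⊔ C := by rw [hC.sup_eq_top]; exact Submodule.mem_top
  obtain ⟨y, hy, u, hu, rfl⟩ := Submodule.mem_sup.1 hmem
  obtain ⟨a, rfl⟩ := Submodule.mem_span_singleton.1 hy
  have h5 : (A' + s • B') (⟨u, hu⟩, c) = 0 := by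
    rw [LinearMap.add_apply, LinearMap.smul_apply, hA', hB']
    rw [map_add, map_smul, Th_iota, smul_zero, zero_add, Th_add_smul_both, LinearMap.add_apply,
      LinearMap.smul_apply] at hu'
    rw [← hu']
    abel
  have h7 := (injective_iff_map_eq_zero _).1 hinj _ h5
  have h8 : u = 0 := congrArg (fun z : C × ℂ => (z.1 : Src x)) h7
  have h9 : c = 0 := congrArg (fun z : C × ℂ => z.2) h7
  exact ⟨h9, a, by rw [h8, add_zero]⟩

/-- Hom-freeness from the base point (second frame moves).  PROVED from `pr_corank_one`, `pr_finite_not_inj`. -/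
theorem finite_not_free_right {x : Fin 3 → K → ℝ} {g ξ : Tgt K} (h : BT x g ξ) :
    {s : ℂ | ¬ Function.Injective (Th x g (g + s • ξ))}.Finite := by
  have e : ∀ s : ℂ, Th x g (g + s • ξ) = Th x g g + s • ThR x ξ := Th_add_smul_right x g g ξ
  have h1 : ThR x ξ (iota x) = -ξ := by
    funext i
    simp [ThR, iota]
  obtain ⟨s₀, hs₀⟩ := pr_corank_one (Th x g g) (ThR x ξ) (iota x) h.brick (Th_iota x g) (by
    rw [h1]
    intro hm
    exact h.notMem (by simpa using (LinearMap.range (Th x g g)).neg_mem hm))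
  simp only [e]
  exact pr_finite_not_inj _ _ s₀ hs₀

/-- Hom-freeness towards the base point (first frame moves).  PROVED from `pr_corank_one`, `pr_finite_not_inj`. -/
theorem finite_not_free_left {x : Fin 3 → K → ℝ} {g ξ : Tgt K} (h : BT x g ξ) :
    {s : ℂ | ¬ Function.Injective (Th x (g + s • ξ) g)}.Finite := by
  have e : ∀ s : ℂ, Th x (g + s • ξ) g = Th x g g + s • ThL x ξ := Th_add_smul_left x g g ξ
  have h1 : ThL x ξ (iota x) = ξ := by
    funext i
    simp [ThL, iota]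
  obtain ⟨s₀, hs₀⟩ := pr_corank_one (Th x g g) (ThL x ξ) (iota x) h.brick (Th_iota x g) (by
    rw [h1]; exact h.notMem)
  simp only [e]
  exact pr_finite_not_inj _ _ s₀ hs₀

/-- **existence of the family.**  PROVED from the leaves. -/
theorem exists_fam [Nonempty K] {x : Fin 3 → K → ℝ} (hsq : Sq x) {g : Tgt K} (hg : Brick x g) (b : ℕ) :
    ∃ (ξ : Tgt K) (σ : Fin b → ℂ), Fam x b (fun j => g + σ j • ξ) ξ := by
  obtain ⟨ξ, hξ⟩ := exists_transversal hsq g
  have h0 : BT x g ξ := bt_of_brick hg hξ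
  -- the bad sets
  have hZ : ({s : ℂ | ¬ BT x (g + s • ξ) ξ} ∪ ({s : ℂ | ¬ Function.Injective (Th x g (g + s • ξ))} ∪
      {s : ℂ | ¬ Function.Injective (Th x (g + s • ξ) g)})).Finite :=
    (finite_not_bt h0).union ((finite_not_free_right h0).union (finite_not_free_left h0))
  obtain ⟨σ, h1, h2⟩ := pr_select _ hZ
    (fun s => {t : ℂ | ¬ Function.Injective (Th x (g + s • ξ) (g + t • ξ))} ∪
      {t : ℂ | ¬ Function.Injective (Th x (g + t • ξ) (g + s • ξ))}) (fun s hs => by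
      simp only [Set.mem_union, Set.mem_ofPred_eq, not_or, not_not] at hs
      obtain ⟨-, hs1, hs2⟩ := hs
      refine Set.Finite.union ?_ ?_
      · have e : ∀ t : ℂ, Th x (g + s • ξ) (g + t • ξ) = Th x (g + s • ξ) g + t • ThR x ξ :=
          Th_add_smul_right x (g + s • ξ) g ξ
        simp only [e]
        exact pr_finite_not_inj _ _ 0 (by rwa [zero_smul, add_zero])
      · have e : ∀ t : ℂ, Th x (g + t • ξ) (g + s • ξ) = Th x g (g + s • ξ) + t • ThL x ξ :=
          fun t => Th_add_smul_left x g (g + s • ξ) ξ t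
        simp only [e]
        exact pr_finite_not_inj _ _ 0 (by rwa [zero_smul, add_zero])) b
  refine ⟨ξ, σ, ⟨fun j => ?_, fun j k hjk => ?_⟩⟩
  · have := h1 j
    simp only [Set.mem_union, Set.mem_ofPred_eq, not_or, not_not] at this
    exact this.1
  · rcases lt_or_gt_of_ne hjk with hlt | hlt
    · have := h2 j k hlt
      simp only [Set.mem_union, Set.mem_ofPred_eq, not_or, not_not] at this
      exact this.1
    · have := h2 k j hlt
      simp only [Set.mem_union, Set.mem_ofPred_eq, not_or, not_not] at this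
      exact this.2

end Claimed.Agent.R282.PR
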