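import Mathlib

/-!
# Row 282, Lemma 4.1 (profile rigidity), package BP-S34-G6.  File 1: MASTER PLAN + generic linear algebra

Owner: helper115.  Target: `s34_profile_rigidity` of `S34/Link.lean` (through `PR.pr_main` of `PR/Main.lean`).

## The route (deviates from the paper: no flag varieties, no Chevalley, no Krull-Schmidt, no real dimension count)

Data: level vectors `x i : K → ℝ` (`i : Fin 3`), frames `g i : Matrix K K ℂ`.
`Par (x i)` = matrices `A` with `A.BlockTriangular (x i)` (`x i b < x i a → A a b = 0`).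
PAIR FORM of the filtered homomorphisms from the configuration `g` to the configuration `g'`:
`Th x g g' (L, A) = (L * g i - g' i * A i)_i` on `Src x = Matrix × ∏ i, Par (x i)`, with values in `Tgt K = Fin 3 → Matrix`.
It is LINEAR in `(g, g')`; no frame has to be invertible; `iota = (1, 1, 1, 1)` lies in `ker (Th x g g)` for all `g`.
`Sq x` : `∑ i, #{(a, b) | x i a ≤ x i b} = 2 (#K)²`, i.e. `finrank (Src x) = finrank (Tgt K)` ("`‖m‖² = r²`").

1. (`Brick.lean`) trace argument: for an irreducible Hermitian zero-sum triple `X i = g i D(x i) (g i)ᴴ`, `ker (Th x g g) = ℂ iota`.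
2. (`Fam.lean`) `Sq x` ⟹ the range of `Th x g g` is a hyperplane; choose `ξ` outside; `g(s) = g + s ξ`.  Off a finite set of `s`:
   `BT s` (brick + transversality at `g(s)`); off finite sets: `Th x g(s) g(s')` injective.  Choose `s_1 .. s_b`.
3. (`Block.lean`) `W = blockDiagonal (g(s_j))` on `K × Fin b`, levels `x i ∘ fst`: `finrank ker ≤ b`; the linear map
   `(k, σ, A) ↦ (k W_i + blockDiagonal (σ_j ξ_i) - W_i A_i)_i` is onto (blockwise; square + injective).
4. (`Open.lean`) `Ψ (k, σ, p) = ((1 + k) G_i(σ) (1 + mask p_i))_i`; `HasStrictFDerivAt.map_nhds_eq_of_surj`: every `g'` near `W` is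
   `k G(σ) q` with `k, q_i` invertible, `q_i ∈ Par`; conjugating the block idempotents: `b ≤ finrank ker (Th g' g')`.
5. (`Main.lean`) `b = h` for `x`, `b' = r` for `y`; level preserving bijections `Fin h × Fin r ≃ Fin r × Fin h`; semicontinuity of
   `finrank ker` along the complex line from `W` to the transported `W'`: `h ≤ r`.  Symmetry.

This file: the three generic lemmas on pencils `A + s B` and the selection lemma.
-/

set_option autoImplicit false

open Module

namespace Claimed.Agent.R282.PR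

variable {V W : Type*} [AddCommGroup V] [Module ℂ V] [FiniteDimensional ℂ V] [AddCommGroup W] [Module ℂ W]

/-- **Lemma P** (leaf `PR-Lin-P`).  A pencil which is injective for one parameter is injective for all but finitely many.
PLAN.  `LinearMap.exists_leftInverse_of_injective`: `R ∘ (A + s₀ B) = id`.  `M = toMatrix (R ∘ A)`, `N = toMatrix (R ∘ B)` in `Module.finBasis ℂ V`.
`P = det (M.map C + X • N.map C) : ℂ[X]`; `P.eval s = det (M + s • N)` (`RingHom.map_det (Polynomial.evalRingHom s)`); `P.eval s₀ = 1`, so `P ≠ 0` and the root set is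
finite (`Polynomial.roots`, `Multiset.toFinset`); if `P.eval s ≠ 0` then `R ∘ (A + s B)` is injective (`LinearMap.det`/`Matrix.det` unit ⟹ `mulVec` injective), hence `A + s B`. -/
theorem pr_finite_not_inj (A B : V →ₗ[ℂ] W) (s₀ : ℂ) (h : Function.Injective (A + s₀ • B)) :
    {s : ℂ | ¬ Function.Injective (A + s • B)}.Finite := by
  obtain ⟨R, hR⟩ := LinearMap.exists_leftInverse_of_injective (A + s₀ • B) (LinearMap.ker_eq_bot.2 h)
  have hR' : ∀ v, R (A v + s₀ • B v) = v := fun v => by
    have := LinearMap.congr_fun hR v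
    simpa using this
  refine ((Module.End.finite_hasEigenvalue (R ∘ₗ B)).image fun μ => s₀ - μ⁻¹).subset ?_
  intro s hs
  rw [Set.mem_ofPred_eq, injective_iff_map_eq_zero] at hs
  push Not at hs
  obtain ⟨v, hv, hv0⟩ := hs
  have h1 : A v + s • B v = 0 := by simpa using hv
  have h2 : R (A v) + s • R (B v) = 0 := by
    have := congrArg R h1
    simpa using this
  have h3 : R (A v) + s₀ • R (B v) = v := by
    have := hR' v
    simpa using this
  have h4 : (s₀ - s) • R (B v) = v := by
    have h5 : s • R (B v) = -R (A v) := by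
      rw [eq_neg_iff_add_eq_zero, add_comm]; exact h2
    calc (s₀ - s) • R (B v) = s₀ • R (B v) - s • R (B v) := sub_smul _ _ _
      _ = R (A v) + s₀ • R (B v) := by rw [h5]; abel
      _ = v := h3
  have hne : s₀ - s ≠ 0 := by
    intro h0
    rw [h0, zero_smul] at h4
    exact hv0 h4.symm
  refine ⟨(s₀ - s)⁻¹, ?_, ?_⟩
  · refine Module.End.hasEigenvalue_of_hasEigenvector (x := v) ⟨?_, hv0⟩
    rw [Module.End.mem_eigenspace_iff]
    change R (B v) = (s₀ - s)⁻¹ • v
    conv_rhs => rw [← h4]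
    rw [smul_smul, inv_mul_cancel₀ hne, one_smul]
  · simp

/-- **Lemma R** (leaf `PR-Lin-R`).  Semicontinuity of the kernel dimension along a pencil.
PLAN.  `C` a complement of `ker (A + s₀ B)` (`Submodule.exists_isCompl`).  `pr_finite_not_inj` for `A ∘ C.subtype`, `B ∘ C.subtype`.  If `(A + s B) ∘ C.subtype` is injective then
`ker (A + s B) ⊓ C = ⊥`, so `finrank ker (A + s B) + finrank C ≤ finrank V = finrank ker (A + s₀ B) + finrank C` (`Submodule.finrank_add_finrank_le_of_disjoint`,
`Submodule.finrank_add_eq_of_isCompl`). -/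
theorem pr_finite_ker_gt (A B : V →ₗ[ℂ] W) (s₀ : ℂ) :
    {s : ℂ | finrank ℂ (LinearMap.ker (A + s₀ • B)) < finrank ℂ (LinearMap.ker (A + s • B))}.Finite := by
  obtain ⟨C, hC⟩ := Submodule.exists_isCompl (LinearMap.ker (A + s₀ • B))
  have hinj : Function.Injective (A ∘ₗ C.subtype + s₀ • (B ∘ₗ C.subtype)) := by
    rw [injective_iff_map_eq_zero]
    intro c hc
    have h1 : (c : V) ∈ LinearMap.ker (A + s₀ • B) := by
      rw [LinearMap.mem_ker]
      simpa using hc
    have h2 : (c : V) ∈ LinearMap.ker (A + s₀ • B) ⊓ C := ⟨h1, c.2⟩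
    rw [hC.inf_eq_bot, Submodule.mem_bot] at h2
    exact Subtype.ext h2
  refine (pr_finite_not_inj _ _ s₀ hinj).subset ?_
  intro s hs hinj'
  rw [Set.mem_ofPred_eq] at hs
  have hdisj : Disjoint (LinearMap.ker (A + s • B)) C := by
    rw [Submodule.disjoint_def]
    intro x hx hxC
    have h1 : (A ∘ₗ C.subtype + s • (B ∘ₗ C.subtype)) ⟨x, hxC⟩ = 0 := by
      rw [LinearMap.mem_ker] at hx
      simpa using hx
    have h2 := (injective_iff_map_eq_zero _).1 hinj' _ h1
    exact congrArg Subtype.val h2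
  have h3 := Submodule.finrank_add_finrank_le_of_disjoint hdisj
  have h4 := Submodule.finrank_add_eq_of_isCompl hC
  omega

/-- **corank one lemma** (leaf `PR-Lin-C1`).
PLAN.  `C` a complement of `span {v}`.  `S s : C × ℂ → W`, `(c, a) ↦ T₀ c + s T₁ c + a T₁ v` is a pencil, injective at `s = 0`.  `pr_finite_not_inj`; take `s ≠ 0` outside the
finite set (`Set.Finite.infinite_compl`/`Set.Infinite.exists_notMem_finite`); `(T₀ + s T₁)(c + a v) = S s (c, s a)`. -/
theorem pr_corank_one (T₀ T₁ : V →ₗ[ℂ] W) (v : V) (hker : ∀ u, T₀ u = 0 → ∃ c : ℂ, u = c • v) (hv : T₀ v = 0)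
    (htr : T₁ v ∉ LinearMap.range T₀) : ∃ s : ℂ, Function.Injective (T₀ + s • T₁) := by
  obtain ⟨C, hC⟩ := Submodule.exists_isCompl (Submodule.span ℂ {v})
  -- the pencil on `C × ℂ`
  let A' : (C × ℂ) →ₗ[ℂ] W :=
    (T₀ ∘ₗ C.subtype).coprod (LinearMap.toSpanSingleton ℂ W (T₁ v))
  let B' : (C × ℂ) →ₗ[ℂ] W := (T₁ ∘ₗ C.subtype).coprod 0
  have hA' : ∀ (c : C) (a : ℂ), A' (c, a) = T₀ c + a • T₁ v := fun c a => by
    simp [A', LinearMap.toSpanSingleton_apply]
  have hB' : ∀ (c : C) (a : ℂ), B' (c, a) = T₁ c := fun c a => by simp [B']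
  have hinj0 : Function.Injective (A' + (0 : ℂ) • B') := by
    rw [injective_iff_map_eq_zero]
    rintro ⟨c, a⟩ hca
    have h1 : T₀ c + a • T₁ v = 0 := by
      have : (A' + (0 : ℂ) • B') (c, a) = A' (c, a) := by simp
      rw [this, hA'] at hca
      exact hca
    have ha : a = 0 := by
      by_contra ha
      apply htr
      refine ⟨-(a⁻¹ • (c : V)), ?_⟩
      have h2 : a • T₁ v = -T₀ c := by
        rw [eq_neg_iff_add_eq_zero, add_comm]; exact h1
      rw [map_neg, map_smul]
      have h3 : T₁ v = a⁻¹ • (a • T₁ v) := by rw [smul_smul, inv_mul_cancel₀ ha, one_smul]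
      rw [h3, h2, smul_neg]
    rw [ha, zero_smul, add_zero] at h1
    obtain ⟨k, hk⟩ := hker _ h1
    have h4 : (c : V) ∈ Submodule.span ℂ {v} ⊓ C :=
      ⟨by rw [hk]; exact Submodule.smul_mem _ _ (Submodule.mem_span_singleton_self v), c.2⟩
    rw [hC.inf_eq_bot, Submodule.mem_bot] at h4
    rw [ha]
    exact Prod.ext (Subtype.ext h4) rfl
  have hfin := pr_finite_not_inj A' B' 0 hinj0
  obtain ⟨s, hs⟩ := (hfin.union (Set.finite_singleton (0 : ℂ))).infinite_compl.nonempty
  rw [Set.mem_compl_iff, Set.mem_union, not_or, Set.mem_ofPred_eq, not_not,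
    Set.mem_singleton_iff] at hs
  obtain ⟨hsinj, hs0⟩ := hs
  refine ⟨s, ?_⟩
  rw [injective_iff_map_eq_zero]
  intro u hu
  have hu' : u ∈ Submodule.span ℂ {v} ⊔ C := by rw [hC.sup_eq_top]; exact Submodule.mem_top
  obtain ⟨x, hx, c, hc, rfl⟩ := Submodule.mem_sup.1 hu'
  obtain ⟨a, rfl⟩ := Submodule.mem_span_singleton.1 hx
  have h5 : (A' + s • B') (⟨c, hc⟩, s * a) = 0 := by
    rw [LinearMap.add_apply, LinearMap.smul_apply, hA', hB']
    have h6 : (T₀ + s • T₁) (a • v + c) = 0 := hu
    rw [LinearMap.add_apply, LinearMap.smul_apply, map_add, map_add, map_smul, map_smul, hv,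
      smul_zero, zero_add, smul_add, smul_smul] at h6
    rw [← h6]
    abel
  have h7 := (injective_iff_map_eq_zero _).1 hsinj _ h5
  have h8 : c = 0 := congrArg (fun z : C × ℂ => (z.1 : V)) h7
  have h9 : s * a = 0 := congrArg (fun z : C × ℂ => z.2) h7
  have h10 : a = 0 := (mul_eq_zero.1 h9).resolve_left hs0
  rw [h8, h10, zero_smul, add_zero]

/-- **selection** (leaf `PR-Lin-Sel`).
PLAN.  `exists_seq_of_forall_finset_exists (fun s => s ∉ Z) (fun s t => t ∉ F s)`: the union of `Z` and of the finitely many finite sets `F s` is finite and `ℂ` is infinite. -/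
theorem pr_select (Z : Set ℂ) (hZ : Z.Finite) (F : ℂ → Set ℂ) (hF : ∀ s, s ∉ Z → (F s).Finite) (b : ℕ) :
    ∃ σ : Fin b → ℂ, (∀ j, σ j ∉ Z) ∧ ∀ j k, j < k → σ k ∉ F (σ j) := by
  obtain ⟨f, hf1, hf2⟩ := exists_seq_of_forall_finset_exists (fun s : ℂ => s ∉ Z) (fun s t => t ∉ F s)
    (by
      intro S hS
      have hfin : (Z ∪ ⋃ x ∈ S, F x).Finite :=
        hZ.union (Set.Finite.biUnion S.finite_toSet fun x hx => hF x (hS x hx))
      obtain ⟨y, hy⟩ := hfin.infinite_compl.nonempty
      rw [Set.mem_compl_iff, Set.mem_union, not_or] at hy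
      refine ⟨y, hy.1, fun x hx hyx => hy.2 ?_⟩
      exact Set.mem_biUnion hx hyx)
  exact ⟨fun j => f j, fun j => hf1 j, fun j k hjk => hf2 j k hjk⟩

end Claimed.Agent.R282.PR
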