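import Claimed.Agent.R282.S34.PR.Block

/-!
# Row 282, profile rigidity.  File 5: the open mapping argument

See the master plan in `PR/Lin.lean`.  `Ψ (k, σ, p) = ((1 + k) G_i(σ) (1 + mask p_i))_i`.
Norms: `open scoped Matrix.Norms.Operator` (normed algebra structure on matrices); the statements which are exported (`eDim_ge_near`) only use the topology.
-/

set_option autoImplicit false

open Module Matrix Topology
open scoped Matrix.Norms.Operator

namespace Claimed.Agent.R282.PR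

variable {K : Type} [Fintype K] [DecidableEq K] {b : ℕ}

section mask

variable {I : Type} [Fintype I] [DecidableEq I]

/-- the coordinate projection of all matrices onto `Par x` -/
noncomputable def msk (x : I → ℝ) : Matrix I I ℂ →ₗ[ℂ] Matrix I I ℂ where
  toFun p := Matrix.of fun a c => if x a ≤ x c then p a c else 0
  map_add' p q := by
    ext a c
    by_cases h : x a ≤ x c <;> simp [h]
  map_smul' t p := by
    ext a c
    by_cases h : x a ≤ x c <;> simp [h]

omit [Fintype I] [DecidableEq I] in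
theorem msk_blockTriangular (x : I → ℝ) (p : Matrix I I ℂ) : (msk x p).BlockTriangular x := fun a c hac => by
  show (if x a ≤ x c then p a c else 0) = 0
  rw [if_neg (not_le.2 hac)]

omit [Fintype I] [DecidableEq I] in
theorem msk_of_blockTriangular {x : I → ℝ} {p : Matrix I I ℂ} (h : p.BlockTriangular x) : msk x p = p := by
  ext a c
  show (if x a ≤ x c then p a c else 0) = p a c
  by_cases hac : x a ≤ x c
  · rw [if_pos hac]
  · rw [if_neg hac, h (not_le.1 hac)]

end mask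

/-- the direct sum of the members `g + σ j • ξ` of the one-parameter family -/
def Gs (g ξ : Tgt K) (σ : Fin b → ℂ) : Tgt (K × Fin b) := bd fun j => g + σ j • ξ

/-- the parametrisation -/
noncomputable def Psi (x : Fin 3 → K → ℝ) (g ξ : Tgt K)
    (z : Matrix (K × Fin b) (K × Fin b) ℂ × (Fin b → ℂ) × Tgt (K × Fin b)) : Tgt (K × Fin b) :=
  fun i => (1 + z.1) * Gs g ξ z.2.1 i * (1 + msk (lvl b x i) (z.2.2 i))

/-- the differential of `Psi` at `(0, σ, 0)`, as a linear map -/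
noncomputable def dPsiL (x : Fin 3 → K → ℝ) (g ξ : Tgt K) (σ : Fin b → ℂ) :
    (Matrix (K × Fin b) (K × Fin b) ℂ × (Fin b → ℂ) × Tgt (K × Fin b)) →ₗ[ℂ] Tgt (K × Fin b) :=
  LinearMap.pi fun i =>
    (LinearMap.mulRight ℂ (Gs g ξ σ i)).comp (LinearMap.fst _ _ _)
    + ((LinearMap.proj i).comp (dPsi x (0 : Tgt (K × Fin b)) ξ)).comp
        ((LinearMap.inr _ _ _).comp ((LinearMap.fst _ _ _).comp (LinearMap.snd _ _ _)))
    + ((LinearMap.mulLeft ℂ (Gs g ξ σ i)).comp (msk (lvl b x i))).comp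
        ((LinearMap.proj i).comp ((LinearMap.snd _ _ _).comp (LinearMap.snd _ _ _)))

theorem dPsiL_apply (x : Fin 3 → K → ℝ) (g ξ : Tgt K) (σ : Fin b → ℂ)
    (z : Matrix (K × Fin b) (K × Fin b) ℂ × (Fin b → ℂ) × Tgt (K × Fin b)) (i : Fin 3) :
    dPsiL x g ξ σ z i = z.1 * Gs g ξ σ i + (blockDiagonal fun j => z.2.1 j • ξ i)
      + Gs g ξ σ i * msk (lvl b x i) (z.2.2 i) := by
  simp [dPsiL, dPsi_apply]

/-- abstract product rule -/
theorem strict_triple {E 𝔸 : Type*} [NormedAddCommGroup E] [NormedSpace ℂ E] [NormedRing 𝔸] [NormedAlgebra ℂ 𝔸]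
    (A₁ C₁ E₁ D : E →L[ℂ] 𝔸) (c₀ : 𝔸) (z₀ : E) (hA : A₁ z₀ = 0) (hE : E₁ z₀ = 0)
    (hD : ∀ z, D z = A₁ z * (c₀ + C₁ z₀) + C₁ z + (c₀ + C₁ z₀) * E₁ z) :
    HasStrictFDerivAt (fun z => (1 + A₁ z) * (c₀ + C₁ z) * (1 + E₁ z)) D z₀ := by
  have ha : HasStrictFDerivAt (fun z => 1 + A₁ z) A₁ z₀ := A₁.hasStrictFDerivAt.const_add 1
  have hc : HasStrictFDerivAt (fun z => c₀ + C₁ z) C₁ z₀ := C₁.hasStrictFDerivAt.const_add c₀
  have he : HasStrictFDerivAt (fun z => 1 + E₁ z) E₁ z₀ := E₁.hasStrictFDerivAt.const_add 1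
  refine ((ha.mul' hc).mul' he).congr_fderiv ?_
  ext z
  simp only [_root_.add_apply, _root_.smul_apply, smul_eq_mul, Pi.mul_apply, MulOpposite.smul_eq_mul_unop,
    MulOpposite.unop_op, hA, hE, add_zero, one_mul, mul_one, hD]
  abel

/-- the linear part of `σ ↦ Gs g ξ σ i` -/
noncomputable def GsL (ξ : Tgt K) (i : Fin 3) : (Fin b → ℂ) →ₗ[ℂ] Matrix (K × Fin b) (K × Fin b) ℂ where
  toFun σ := blockDiagonal fun j => σ j • ξ i
  map_add' σ τ := by
    rw [← blockDiagonal_add]; congr 1; funext j; simp [add_smul]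
  map_smul' t σ := by
    rw [RingHom.id_apply, ← blockDiagonal_smul]; congr 1; funext j; simp [smul_smul]

omit [Fintype K] [DecidableEq K] in
theorem Gs_eq (g ξ : Tgt K) (σ : Fin b → ℂ) (i : Fin 3) :
    Gs g ξ σ i = Gs g ξ 0 i + GsL ξ i σ := by
  show blockDiagonal (fun j => (g + σ j • ξ) i) = blockDiagonal (fun j => (g + (0 : Fin b → ℂ) j • ξ) i)
    + blockDiagonal fun j => σ j • ξ i
  rw [← blockDiagonal_add]
  congr 1
  funext j
  simp

/-- (leaf `PR-Open-diff`)  **strict differentiability.**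
PLAN.  `hasStrictFDerivAt_pi`; for fixed `i` the product rule `HasStrictFDerivAt.mul'` twice for `a z = 1 + z.1`, `c z = Gs g ξ z.2.1 i = Gs g ξ 0 i + blockDiagonal (fun j => z.2.1 j • ξ i)`
(affine: a constant plus a continuous linear map, `LinearMap.toContinuousLinearMap`), `e z = 1 + msk _ (z.2.2 i)`; at the base point `a = 1`, `e = 1`.
Identify the resulting continuous linear map with `dPsiL` by `ContinuousLinearMap.ext` + `dPsiL_apply` + `simp`. -/
theorem psi_strict (x : Fin 3 → K → ℝ) (g ξ : Tgt K) (σ : Fin b → ℂ) :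
    HasStrictFDerivAt (Psi x g ξ) (LinearMap.toContinuousLinearMap (dPsiL x g ξ σ)) ((0, σ, 0) :
      Matrix (K × Fin b) (K × Fin b) ℂ × (Fin b → ℂ) × Tgt (K × Fin b)) := by
  refine hasStrictFDerivAt_pi'.2 fun i => ?_
  have h := strict_triple (E := Matrix (K × Fin b) (K × Fin b) ℂ × (Fin b → ℂ) × Tgt (K × Fin b))
    (𝔸 := Matrix (K × Fin b) (K × Fin b) ℂ)
    (ContinuousLinearMap.fst ℂ _ _)
    ((LinearMap.toContinuousLinearMap (GsL (b := b) ξ i)).comp
        ((ContinuousLinearMap.fst ℂ _ _).comp (ContinuousLinearMap.snd ℂ _ _)))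
    ((LinearMap.toContinuousLinearMap (msk (lvl b x i))).comp
        ((ContinuousLinearMap.proj i).comp ((ContinuousLinearMap.snd ℂ _ _).comp (ContinuousLinearMap.snd ℂ _ _))))
    ((ContinuousLinearMap.proj i).comp (LinearMap.toContinuousLinearMap (dPsiL x g ξ σ)))
    (Gs g ξ 0 i) (0, σ, 0) rfl (by show msk (lvl b x i) 0 = 0; exact map_zero _) (fun z => by
      show dPsiL x g ξ σ z i = z.1 * (Gs g ξ 0 i + GsL ξ i σ) + GsL ξ i z.2.1
        + (Gs g ξ 0 i + GsL ξ i σ) * msk (lvl b x i) (z.2.2 i)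
      rw [← Gs_eq, dPsiL_apply]
      rfl)
  refine h.congr_of_eventuallyEq (Filter.Eventually.of_forall fun z => ?_)
  show (1 + z.1) * (Gs g ξ 0 i + GsL ξ i z.2.1) * (1 + msk (lvl b x i) (z.2.2 i)) = Psi x g ξ z i
  rw [← Gs_eq]
  rfl

theorem psi_base (x : Fin 3 → K → ℝ) (g ξ : Tgt K) (σ : Fin b → ℂ) :
    Psi x g ξ ((0, σ, 0) : Matrix (K × Fin b) (K × Fin b) ℂ × (Fin b → ℂ) × Tgt (K × Fin b)) = Gs g ξ σ := by
  funext i
  simp [Psi]

/-- surjectivity of the differential from `dPsi_surj` -/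
theorem dPsiL_surj {x : Fin 3 → K → ℝ} {g ξ : Tgt K} {σ : Fin b → ℂ}
    (h : Function.Surjective (dPsi x (Gs g ξ σ) ξ)) : Function.Surjective (dPsiL x g ξ σ) := by
  intro Y
  obtain ⟨⟨u, τ⟩, hu⟩ := h Y
  refine ⟨(u.1, τ, fun i => -(u.2 i : Matrix (K × Fin b) (K × Fin b) ℂ)), ?_⟩
  funext i
  rw [dPsiL_apply, ← hu, dPsi_apply, Th_apply]
  simp only [map_neg, msk_of_blockTriangular (u.2 i).2]
  rw [mul_neg]
  abel

/-- (leaf `PR-Open-unit`)  the invertibility conditions are open.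
PLAN.  `z ↦ (1 + z.1).det` and `z ↦ (1 + msk _ (z.2.2 i)).det` are continuous (`Continuous.matrix_det`, `LinearMap.continuous_of_finiteDimensional`), equal to `1` at the base point;
`ContinuousAt.eventually_ne`; `Matrix.isUnit_iff_isUnit_det`; `Filter.eventually_all` for `i : Fin 3`. -/
theorem psi_units (x : Fin 3 → K → ℝ) (σ : Fin b → ℂ) :
    ∀ᶠ z in 𝓝 ((0, σ, 0) : Matrix (K × Fin b) (K × Fin b) ℂ × (Fin b → ℂ) × Tgt (K × Fin b)),
      IsUnit (1 + z.1) ∧ ∀ i, IsUnit (1 + msk (lvl b x i) (z.2.2 i)) := by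
  have c1 : Continuous fun z : Matrix (K × Fin b) (K × Fin b) ℂ × (Fin b → ℂ) × Tgt (K × Fin b) => (1 + z.1).det :=
    (continuous_const.add continuous_fst).matrix_det
  have c2 : ∀ i, Continuous fun z : Matrix (K × Fin b) (K × Fin b) ℂ × (Fin b → ℂ) × Tgt (K × Fin b) =>
      (1 + msk (lvl b x i) (z.2.2 i)).det := fun i =>
    (continuous_const.add ((LinearMap.continuous_of_finiteDimensional (msk (lvl b x i))).comp
      ((continuous_apply i).comp (continuous_snd.comp continuous_snd)))).matrix_det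
  have e1 := c1.continuousAt.eventually_ne (x := ((0, σ, 0) :
    Matrix (K × Fin b) (K × Fin b) ℂ × (Fin b → ℂ) × Tgt (K × Fin b))) (y := 0) (by simp)
  have e2 := fun i => (c2 i).continuousAt.eventually_ne (x := ((0, σ, 0) :
    Matrix (K × Fin b) (K × Fin b) ℂ × (Fin b → ℂ) × Tgt (K × Fin b))) (y := 0) (by simp)
  filter_upwards [e1, Filter.eventually_all.2 e2] with z h1 h2
  exact ⟨(Matrix.isUnit_iff_isUnit_det _).2 (isUnit_iff_ne_zero.2 h1),
    fun i => (Matrix.isUnit_iff_isUnit_det _).2 (isUnit_iff_ne_zero.2 (h2 i))⟩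

omit [Fintype K] in
theorem dg_eq_blockDiagonal (c : Fin b → ℂ) :
    (dg c : Matrix (K × Fin b) (K × Fin b) ℂ) = blockDiagonal fun j => c j • (1 : Matrix K K ℂ) :=
  blk_ext fun j k => by rw [blk_dg, blk_blockDiagonal]

theorem dg_comm (c : Fin b → ℂ) (D : Fin b → Matrix K K ℂ) : dg c * blockDiagonal D = blockDiagonal D * dg c := by
  rw [dg_eq_blockDiagonal, ← blockDiagonal_mul, ← blockDiagonal_mul]
  congr 1
  funext j
  simp

/-- (leaf `PR-Open-conj`)  **conjugated block idempotents.**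
PLAN.  `k' = k⁻¹`, `q_i' = (q i)⁻¹` (`Matrix.nonsing_inv`, `IsUnit` ⟹ `Invertible`); `(q i)⁻¹` is block triangular (`Matrix.blockTriangular_inv_of_blockTriangular`), products too (`BlockTriangular.mul`).
Linear map `(Fin b → ℂ) → ker (Th X g' g')`, `c ↦ (k dg(c) k⁻¹, q_i⁻¹ dg(c) q_i)`, `g' i = k * bd γ i * q i`: it lands in the kernel because `dg c` commutes with `blockDiagonal`
(`blk_ext`, `blk_mul_blockDiagonal`, `blk_blockDiagonal_mul`, `blk_dg`, or entrywise); it is injective: `k dg(c) k⁻¹ = 0 → dg c = 0 → c = 0` (`Nonempty K`).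
`LinearMap.finrank_le_finrank_of_injective`, `finrank (Fin b → ℂ) = b`. -/
theorem eDim_ge_of_conj [Nonempty K] (x : Fin 3 → K → ℝ) (γ : Fin b → Tgt K) (k : Matrix (K × Fin b) (K × Fin b) ℂ)
    (q : Tgt (K × Fin b)) (hk : IsUnit k) (hq : ∀ i, IsUnit (q i)) (hq' : ∀ i, (q i).BlockTriangular (lvl b x i)) :
    b ≤ eDim (lvl b x) (fun i => k * bd γ i * q i) := by
  have hkd : IsUnit k.det := (Matrix.isUnit_iff_isUnit_det _).1 hk
  have hqd : ∀ i, IsUnit (q i).det := fun i => (Matrix.isUnit_iff_isUnit_det _).1 (hq i)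
  have k1 : k⁻¹ * k = 1 := Matrix.nonsing_inv_mul k hkd
  have q1 : ∀ i, q i * (q i)⁻¹ = 1 := fun i => Matrix.mul_nonsing_inv _ (hqd i)
  have hqi : ∀ i, ((q i)⁻¹).BlockTriangular (lvl b x i) := fun i => by
    obtain ⟨inst⟩ := (hq i).nonempty_invertible
    exact blockTriangular_inv_of_blockTriangular (hq' i)
  let Ξ : Src (lvl b x) →ₗ[ℂ] Src (lvl b x) :=
    { toFun := fun u => (k * u.1 * k⁻¹, fun i => ⟨(q i)⁻¹ * (u.2 i : Matrix (K × Fin b) (K × Fin b) ℂ) * q i,
        ((hqi i).mul (u.2 i).2).mul (hq' i)⟩)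
      map_add' := fun u v => by
        refine Prod.ext ?_ (funext fun i => Subtype.ext ?_)
        · simp [mul_add, add_mul]
        · simp [mul_add, add_mul]
      map_smul' := fun t u => by
        refine Prod.ext ?_ (funext fun i => Subtype.ext ?_)
        · simp
        · simp }
  have hker : ∀ c : Fin b → ℂ, Ξ (del (b := b) x c) ∈
      LinearMap.ker (Th (lvl b x) (fun i => k * bd γ i * q i) (fun i => k * bd γ i * q i)) := by
    intro c
    rw [LinearMap.mem_ker]
    funext i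
    show k * dg c * k⁻¹ * (k * bd γ i * q i) - k * bd γ i * q i * ((q i)⁻¹ * dg c * q i) = 0
    have e1 : k * dg c * k⁻¹ * (k * bd γ i * q i) = k * (dg c * bd γ i) * q i := by
      calc k * dg c * k⁻¹ * (k * bd γ i * q i) = k * dg c * (k⁻¹ * k) * bd γ i * q i := by
            simp only [Matrix.mul_assoc]
        _ = k * (dg c * bd γ i) * q i := by rw [k1, Matrix.mul_one]; simp only [Matrix.mul_assoc]
    have e2 : k * bd γ i * q i * ((q i)⁻¹ * dg c * q i) = k * (bd γ i * dg c) * q i := by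
      calc k * bd γ i * q i * ((q i)⁻¹ * dg c * q i) = k * bd γ i * (q i * (q i)⁻¹) * dg c * q i := by
            simp only [Matrix.mul_assoc]
        _ = k * (bd γ i * dg c) * q i := by rw [q1, Matrix.mul_one]; simp only [Matrix.mul_assoc]
    rw [e1, e2, bd, dg_comm, sub_self]
  let f : (Fin b → ℂ) →ₗ[ℂ] LinearMap.ker (Th (lvl b x) (fun i => k * bd γ i * q i) (fun i => k * bd γ i * q i)) :=
    (Ξ.comp (del (b := b) x)).codRestrict _ hker
  have hf : Function.Injective f := by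
    refine (injective_iff_map_eq_zero f).2 fun c hc => ?_
    have h1 : k * dg c * k⁻¹ = 0 := congrArg (fun w => (w : Src (lvl b x)).1) (congrArg Subtype.val hc)
    have h2 : (dg c : Matrix (K × Fin b) (K × Fin b) ℂ) = 0 := by
      have : k⁻¹ * (k * dg c * k⁻¹) * k = dg c := by
        calc k⁻¹ * (k * dg c * k⁻¹) * k = (k⁻¹ * k) * dg c * (k⁻¹ * k) := by simp only [Matrix.mul_assoc]
          _ = dg c := by rw [k1, Matrix.one_mul, Matrix.mul_one]
      rw [← this, h1, Matrix.mul_zero, Matrix.zero_mul]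
    funext j
    obtain ⟨a⟩ := ‹Nonempty K›
    have := congrFun (congrFun h2 (a, j)) (a, j)
    simpa [dg] using this
  have := LinearMap.finrank_le_finrank_of_injective hf
  simpa [eDim] using this

/-- **lower bound for the kernel dimension near the direct sum.**  PROVED from the leaves. -/
theorem eDim_ge_near [Nonempty K] {x : Fin 3 → K → ℝ} {g ξ : Tgt K} {σ : Fin b → ℂ}
    (h : Function.Surjective (dPsi x (Gs g ξ σ) ξ)) : ∀ᶠ g' in 𝓝 (Gs g ξ σ), b ≤ eDim (lvl b x) g' := by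
  have hc1 : CompleteSpace (Matrix (K × Fin b) (K × Fin b) ℂ × (Fin b → ℂ) × Tgt (K × Fin b)) :=
    FiniteDimensional.complete ℂ _
  have hc2 : CompleteSpace (Tgt (K × Fin b)) := FiniteDimensional.complete ℂ _
  have h1 := (psi_strict x g ξ σ).map_nhds_eq_of_surj (by
    rw [LinearMap.range_eq_top]
    exact dPsiL_surj h)
  rw [psi_base] at h1
  have h2 : Filter.map (Psi x g ξ) (𝓝 ((0, σ, 0) :
      Matrix (K × Fin b) (K × Fin b) ℂ × (Fin b → ℂ) × Tgt (K × Fin b))) = 𝓝 (Gs g ξ σ) := h1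
  rw [← h2, Filter.eventually_map]
  filter_upwards [psi_units x σ] with z hz
  exact eDim_ge_of_conj x _ _ _ hz.1 hz.2 fun i => blockTriangular_one.add (msk_blockTriangular _ _)

end Claimed.Agent.R282.PR
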