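import Claimed.Agent.R282.S34.PR.Lin

/-!
# Row 282, profile rigidity.  File 2: the pair form `Th`, dimension counts

See the master plan in `PR/Lin.lean`.
-/

set_option autoImplicit false

open Module Matrix

namespace Claimed.Agent.R282.PR

variable {K : Type} [Fintype K] [DecidableEq K]

/-- block triangular matrices for the level function `x`: `x b < x a → A a b = 0` -/
def Par (x : K → ℝ) : Submodule ℂ (Matrix K K ℂ) where
  carrier := {A | A.BlockTriangular x}
  add_mem' ha hb := ha.add hb
  zero_mem' := blockTriangular_zero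
  smul_mem' c A hA := fun i j hij => by simp [hA hij]

omit [Fintype K] [DecidableEq K] in
theorem mem_Par {x : K → ℝ} {A : Matrix K K ℂ} : A ∈ Par x ↔ A.BlockTriangular x := Iff.rfl

/-- triples of matrices -/
abbrev Tgt (K : Type) := Fin 3 → Matrix K K ℂ

/-- the source of the pair form -/
abbrev Src (x : Fin 3 → K → ℝ) := Matrix K K ℂ × (∀ i : Fin 3, Par (x i))

/-- **pair form** of the filtered homomorphisms from the configuration `g` to the configuration `g'` -/
def Th (x : Fin 3 → K → ℝ) (g g' : Tgt K) : Src x →ₗ[ℂ] Tgt K where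
  toFun u := fun i => u.1 * g i - g' i * (u.2 i : Matrix K K ℂ)
  map_add' u v := by
    funext i
    simp [add_mul, mul_add]
    abel
  map_smul' c u := by
    funext i
    simp [smul_sub]

@[simp] theorem Th_apply (x : Fin 3 → K → ℝ) (g g' : Tgt K) (u : Src x) (i : Fin 3) :
    Th x g g' u i = u.1 * g i - g' i * (u.2 i : Matrix K K ℂ) := rfl

/-- the identity endomorphism -/
def iota (x : Fin 3 → K → ℝ) : Src x := (1, fun _ => ⟨1, blockTriangular_one⟩)

theorem Th_iota (x : Fin 3 → K → ℝ) (g : Tgt K) : Th x g g (iota x) = 0 := by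
  funext i
  simp [iota]

/-- dependence on the first frame -/
def ThL (x : Fin 3 → K → ℝ) (ξ : Tgt K) : Src x →ₗ[ℂ] Tgt K := Th x ξ 0

/-- dependence on the second frame -/
def ThR (x : Fin 3 → K → ℝ) (ξ : Tgt K) : Src x →ₗ[ℂ] Tgt K := Th x 0 ξ

theorem Th_add_smul_left (x : Fin 3 → K → ℝ) (g g' ξ : Tgt K) (s : ℂ) :
    Th x (g + s • ξ) g' = Th x g g' + s • ThL x ξ := by
  refine LinearMap.ext fun u => funext fun i => ?_
  simp only [ThL, Th_apply, LinearMap.add_apply, LinearMap.smul_apply, Pi.add_apply, Pi.smul_apply, Pi.zero_apply,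
    mul_add, zero_mul, sub_zero, mul_smul_comm]
  abel

theorem Th_add_smul_right (x : Fin 3 → K → ℝ) (g g' ξ : Tgt K) (s : ℂ) :
    Th x g (g' + s • ξ) = Th x g g' + s • ThR x ξ := by
  refine LinearMap.ext fun u => funext fun i => ?_
  simp only [ThR, Th_apply, LinearMap.add_apply, LinearMap.smul_apply, Pi.add_apply, Pi.smul_apply, Pi.zero_apply,
    add_mul, mul_zero, zero_sub, smul_mul_assoc, smul_neg]
  abel

theorem Th_add_smul_both (x : Fin 3 → K → ℝ) (g ξ : Tgt K) (s : ℂ) :
    Th x (g + s • ξ) (g + s • ξ) = Th x g g + s • Th x ξ ξ := by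
  refine LinearMap.ext fun u => funext fun i => ?_
  simp only [Th_apply, LinearMap.add_apply, LinearMap.smul_apply, Pi.add_apply, Pi.smul_apply,
    add_mul, mul_add, smul_mul_assoc, mul_smul_comm, smul_sub]
  abel

/-- kernel dimension of the endomorphism pair form -/
noncomputable def eDim (x : Fin 3 → K → ℝ) (g : Tgt K) : ℕ := finrank ℂ (LinearMap.ker (Th x g g))

/-- `‖m‖² = r²` in the form which is used: the pair form is square -/
def Sq (x : Fin 3 → K → ℝ) : Prop :=
  ∑ i : Fin 3, (Finset.univ.filter fun p : K × K => x i p.1 ≤ x i p.2).card = 2 * Fintype.card K ^ 2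

/-- `2 #{≤} = (#K)² + #{=}` -/
theorem sq_count_one (x : K → ℝ) :
    2 * (Finset.univ.filter fun p : K × K => x p.1 ≤ x p.2).card
      = Fintype.card K ^ 2 + (Finset.univ.filter fun p : K × K => x p.1 = x p.2).card := by
  have hswap : (Finset.univ.filter fun p : K × K => x p.1 ≤ x p.2).card
      = (Finset.univ.filter fun p : K × K => x p.2 ≤ x p.1).card := by
    refine Finset.card_bij (fun p _ => (p.2, p.1)) ?_ ?_ ?_
    · intro p hp
      simpa using hp
    · intro p _ q _ h
      simp only [Prod.mk.injEq] at h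
      exact Prod.ext h.2 h.1
    · intro p hp
      exact ⟨(p.2, p.1), by simpa using hp, rfl⟩
  have hunion : (Finset.univ.filter fun p : K × K => x p.1 ≤ x p.2) ∪
      (Finset.univ.filter fun p : K × K => x p.2 ≤ x p.1) = Finset.univ := by
    ext p
    simp [le_total]
  have hinter : (Finset.univ.filter fun p : K × K => x p.1 ≤ x p.2) ∩
      (Finset.univ.filter fun p : K × K => x p.2 ≤ x p.1)
      = Finset.univ.filter fun p : K × K => x p.1 = x p.2 := by
    ext p
    simp [le_antisymm_iff]
  have h := Finset.card_union_add_card_inter (Finset.univ.filter fun p : K × K => x p.1 ≤ x p.2)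
    (Finset.univ.filter fun p : K × K => x p.2 ≤ x p.1)
  rw [hunion, hinter, ← hswap, Finset.card_univ, Fintype.card_prod] at h
  rw [two_mul, ← h, sq]

/-- (leaf `PR-Par-cnt`)  PLAN.  For one `i`: the swap `p ↦ (p.2, p.1)` is a bijection of `{x p.1 < x p.2}` onto `{x p.2 < x p.1}`; `K × K` is the disjoint union of
`{<}`, `{>}`, `{=}`; so `2 #{≤} = 2 #{<} + 2 #{=} = (#K)² + #{=}`.  Sum over `i`: `2 ∑ #{≤} = 3 (#K)² + (#K)²`. -/
theorem sq_of_tie (x : Fin 3 → K → ℝ)
    (h : ∑ i : Fin 3, (Finset.univ.filter fun p : K × K => x i p.1 = x i p.2).card = Fintype.card K ^ 2) : Sq x := by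
  unfold Sq
  have h1 : 2 * ∑ i : Fin 3, (Finset.univ.filter fun p : K × K => x i p.1 ≤ x i p.2).card
      = ∑ i : Fin 3, (Fintype.card K ^ 2 + (Finset.univ.filter fun p : K × K => x i p.1 = x i p.2).card) := by
    rw [Finset.mul_sum]
    exact Finset.sum_congr rfl fun i _ => sq_count_one (x i)
  rw [Finset.sum_add_distrib, h, Finset.sum_const, Finset.card_univ, Fintype.card_fin, smul_eq_mul] at h1
  omega

/-- (leaf `PR-Par-rank`)  PLAN.  Linear equivalence `Par x ≃ₗ ({p : K × K // x p.1 ≤ x p.2} → ℂ)`, `A ↦ fun p => A p.1.1 p.1.2`, inverse `f ↦ fun a b => if h : x a ≤ x b then f ⟨(a,b),h⟩ else 0`;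
`Module.finrank_fintype_fun_eq_card`, `Fintype.card_subtype`. -/
theorem finrank_Par (x : K → ℝ) :
    finrank ℂ (Par x) = (Finset.univ.filter fun p : K × K => x p.1 ≤ x p.2).card := by
  let e : Par x ≃ₗ[ℂ] ({p : K × K // x p.1 ≤ x p.2} → ℂ) :=
    { toFun := fun A p => (A : Matrix K K ℂ) p.1.1 p.1.2
      map_add' := fun A B => by funext p; simp
      map_smul' := fun c A => by funext p; simp
      invFun := fun f => ⟨Matrix.of fun a b => if h : x a ≤ x b then f ⟨(a, b), h⟩ else 0, by
        intro a b hab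
        simp [not_le.2 hab]⟩
      left_inv := fun A => by
        apply Subtype.ext
        ext a b
        by_cases h : x a ≤ x b
        · simp [h]
        · simp only [Matrix.of_apply, dif_neg h]
          exact (A.2 (not_le.1 h)).symm
      right_inv := fun f => by
        funext p
        simp [p.2] }
  rw [e.finrank_eq, Module.finrank_fintype_fun_eq_card, Fintype.card_subtype]

/-- the pair form is square.  PROVED from `finrank_Par`. -/
theorem finrank_Src {x : Fin 3 → K → ℝ} (h : Sq x) : finrank ℂ (Src x) = finrank ℂ (Tgt K) := by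
  have h1 : finrank ℂ (Matrix K K ℂ) = Fintype.card K ^ 2 := by
    rw [Module.finrank_matrix]; simp [sq]
  have h2 : finrank ℂ (∀ i : Fin 3, Par (x i)) = 2 * Fintype.card K ^ 2 := by
    rw [Module.finrank_pi_fintype]
    simp only [finrank_Par]
    exact h
  have h3 : finrank ℂ (Tgt K) = 3 * Fintype.card K ^ 2 := by
    rw [Module.finrank_pi_fintype]
    simp [h1]
  rw [Module.finrank_prod, h1, h2, h3]
  ring

/-- square + injective ⟹ surjective -/
theorem Th_surj_of_inj {x : Fin 3 → K → ℝ} (h : Sq x) {T : Src x →ₗ[ℂ] Tgt K} (hT : Function.Injective T) :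
    Function.Surjective T :=
  (LinearMap.injective_iff_surjective_of_finrank_eq_finrank (finrank_Src h)).1 hT

end Claimed.Agent.R282.PR
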